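import Vale.Agent.P261.H260.Main

/-!
# P261, Q1: finite type of the `K(n)`-local sphere and countability
-/

open CategoryTheory Limits Pretriangulated MonoidalCategory

universe v u

namespace Vale.Agent.Results.P261.FiniteTypeCountability

open Vale.Agent.P261

/-- **Finite type and countability.** -/
theorem result {C : Type u} [Category.{v} C] [Preadditive C] [HasZeroObject C] [HasShift C ℤ]
    [∀ n : ℤ, (shiftFunctor C n).Additive] [Pretriangulated C] [MonoidalCategory C]
    [TensorTriangulated C] [HasCoproductsOfShape ℕ C]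
    [∀ X : C, PreservesColimitsOfShape (Discrete ℕ) (tensorLeft X)]
    (p : ℕ) [Fact p.Prime] (n : ℕ) (hn : 1 ≤ n)
    -- Morava K-theories; the smash product theorem; existence of localizations
    (K : ℕ → C) (hKK : ∀ i j, i ≠ j → IsZero (K i ⊗ K j)) (hKp : (p : ℤ) • 𝟙 (K n) = 0)
    (hsmash : ∀ {A B : C} (f : A ⟶ B), IsBousfieldLocalization (upTo K (n - 1)) f →
      ∀ W : C, IsBousfieldLocalization (upTo K (n - 1)) (W ◁ f))
    (hex : ∀ W : C, ∃ (L : C) (f : W ⟶ L), IsBousfieldLocalization (upTo K (n - 1)) f)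
    -- the `p`-complete sphere `S` and its localizations `X j = L_j S`, `Z = L_{K(n)} S`,
    -- `Y = L_{n-1} L_{K(n)} S`
    (S : C) (X : ℕ → C) (l : ∀ j, S ⟶ X j) (hl : ∀ j, IsBousfieldLocalization (upTo K j) (l j))
    (Z : C) (z : S ⟶ Z) (hz : IsBousfieldLocalization (fun _ : Unit => K n) z)
    (Y : C) (y : Z ⟶ Y) (hy : IsBousfieldLocalization (upTo K (n - 1)) y)
    -- generalized Moore spectra `G h` of type `h`, `1 ≤ h ≤ n`: `G 1` is the cofibre of `p`,
    -- and `G (h + 1)` is the cofibre of a self map `w h` of degree `d h > 0` of `G h`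
    (G : ℕ → C) (d : ℕ → ℤ) (hd : ∀ h, 0 < d h)
    (a : 𝟙_ C ⟶ G 1) (b : G 1 ⟶ (𝟙_ C)⟦(1 : ℤ)⟧)
    (hM : Triangle.mk ((p : ℤ) • 𝟙 (𝟙_ C)) a b ∈ distTriang C)
    (w : ∀ h, (G h)⟦d h⟧ ⟶ G h) (g : ∀ h, G h ⟶ G (h + 1))
    (e : ∀ h, G (h + 1) ⟶ ((G h)⟦d h⟧)⟦(1 : ℤ)⟧)
    (hG : ∀ h, 1 ≤ h → h < n → Triangle.mk (w h) (g h) (e h) ∈ distTriang C)
    (hw : ∀ h, 1 ≤ h → h < n → K n ◁ w h = 0)
    -- the type `n` homotopy of `L_{K(n)} S` is finite, the mod `p` homotopy of `L_j S` is countable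
    (hfin : ∀ t : ℤ, Finite ((G n)⟦t⟧ ⟶ Z))
    (hX : ∀ (j : ℕ) (t : ℤ), j ≤ n → Countable ((G 1)⟦t⟧ ⟶ X j)) :
    List.TFAE
      [FiniteType p Z,
       ∀ F : C, Thick (fun W => W = G 1) F → ∀ t : ℤ, Finite (F⟦t⟧ ⟶ Z),
       ∀ t : ℤ, Countable ((G 1)⟦t⟧ ⟶ Z),
       ∀ t : ℤ, Countable ((G 1)⟦t⟧ ⟶ Y),
       ∀ h : ℕ, 1 ≤ h → h < n → ∀ t : ℤ, 0 ≤ t → t < d h → Countable ((G h)⟦t⟧ ⟶ Z),
       ∀ h : ℕ, 1 ≤ h → h < n → ∀ t : ℤ, 0 ≤ t → t < d h → Countable ((G h)⟦t⟧ ⟶ Y)] ∧
    (Thick (fun W => ∃ j < n, Nonempty (W ≅ X j)) Y → FiniteType p Z) := by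
  have hF : IsSmallness (fun A : Type v => Finite A) := isSmallness_finite
  have hC : IsSmallness (fun A : Type v => Countable A) := isSmallness_countable
  have hZ := hz.2
  -- the source `G h` from `G 1`
  have up : ∀ (P : Type v → Prop), IsSmallness P → ∀ V : C, SmallHom P (G 1) V →
      ∀ h, 1 ≤ h → h ≤ n → SmallHom P (G h) V := by
    intro P hP V h1 h hh
    induction h, hh using Nat.le_induction with
    | base => exact fun _ => h1
    | succ h hh ih =>
      intro hlt
      have h2 := ih (by omega)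
      exact SmallHom.source₃ hP (hG h hh (by omega)) (h2.shift_left hP (d h)) h2
  have hXs : ∀ j ≤ n, ∀ h, 1 ≤ h → h ≤ n → SmallHom (fun A => Countable A) (G h) (X j) :=
    fun j hj => up _ hC _ (fun t => hX j t hj)
  have cmp : ∀ h, 1 ≤ h → h ≤ n → (SmallHom (fun A => Countable A) (G h) Z ↔
      SmallHom (fun A => Countable A) (G h) Y) := fun h h1 h2 =>
    compare hn hKK hsmash hex (hl n) (hl (n - 1)) hz hy hC (hXs n le_rfl h h1 h2)
      (hXs (n - 1) (by omega) h h1 h2)
  -- the equivalences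
  have e12 : FiniteType p Z → SmallHom (fun A => Finite A) (G 1) Z :=
    FiniteType.smallHom p hM
  have e21 : SmallHom (fun A => Finite A) (G 1) Z → FiniteType p Z :=
    finiteType_of_smallHom p hM hKp hZ
  have hfc : ∀ {W V : C}, SmallHom (fun A => Finite A) W V → SmallHom (fun A => Countable A) W V :=
    fun h t => by
      have : Finite _ := h t
      exact Finite.to_countable
  -- descending induction for `Z`
  have down : (∀ h : ℕ, 1 ≤ h → h < n → ∀ t : ℤ, 0 ≤ t → t < d h → Countable ((G h)⟦t⟧ ⟶ Z)) →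
      SmallHom (fun A => Finite A) (G 1) Z := by
    intro H
    have : ∀ k, k ≤ n - 1 → SmallHom (fun A => Finite A) (G (n - k)) Z := by
      intro k
      induction k with
      | zero => exact fun _ => hfin
      | succ k ih =>
        intro hk
        have h1 := ih (by omega)
        have h2 : n - k = (n - (k + 1)) + 1 := by omega
        rw [h2] at h1
        have hT := hG (n - (k + 1)) (by omega) (by omega)
        have h3 : SmallHom (fun A => Countable A) (G (n - (k + 1))) Z :=
          smallHom_of_range hT hC (hd _) (hfc h1) (H _ (by omega) (by omega))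
        exact finite_step hZ hT (hw _ (by omega) (by omega)) h1 h3
    have h4 := this (n - 1) le_rfl
    have h5 : n - (n - 1) = 1 := by omega
    rwa [h5] at h4
  -- descending induction for `Y`
  have downY : (∀ h : ℕ, 1 ≤ h → h < n → ∀ t : ℤ, 0 ≤ t → t < d h → Countable ((G h)⟦t⟧ ⟶ Y)) →
      SmallHom (fun A => Countable A) (G 1) Y := by
    intro H
    have : ∀ k, k ≤ n - 1 → SmallHom (fun A => Countable A) (G (n - k)) Y := by
      intro k
      induction k with
      | zero => exact fun _ => (cmp n hn le_rfl).mp (hfc hfin)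
      | succ k ih =>
        intro hk
        have h1 := ih (by omega)
        have h2 : n - k = (n - (k + 1)) + 1 := by omega
        rw [h2] at h1
        have hT := hG (n - (k + 1)) (by omega) (by omega)
        exact smallHom_of_range hT hC (hd _) h1 (H _ (by omega) (by omega))
    have h4 := this (n - 1) le_rfl
    have h5 : n - (n - 1) = 1 := by omega
    rwa [h5] at h4
  have e31 : SmallHom (fun A => Countable A) (G 1) Z → FiniteType p Z := fun h =>
    e21 (down (fun k h1 h2 t _ _ => up _ hC _ h k h1 h2.le t))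
  refine ⟨?_, ?_⟩
  · tfae_have 1 → 2 := fun h F hF' t => (Thick.smallHom_left hF (fun W hW => by
      rw [hW]; exact e12 h) hF') t
    tfae_have 2 → 3 := fun h t => by
      have : Finite _ := h (G 1) (Thick.of rfl) t
      exact Finite.to_countable
    tfae_have 3 → 1 := e31
    tfae_have 3 ↔ 4 := cmp 1 le_rfl hn
    tfae_have 3 → 5 := fun h k h1 h2 t _ _ => up _ hC _ h k h1 h2.le t
    tfae_have 5 → 1 := fun h => e21 (down h)
    tfae_have 4 → 6 := fun h k h1 h2 t _ _ => up _ hC _ h k h1 h2.le t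
    tfae_have 6 → 4 := downY
    tfae_finish
  · intro hY
    refine e31 ((cmp 1 le_rfl hn).mpr ?_)
    refine Thick.smallHom hC (fun W hW => ?_) hY
    obtain ⟨j, hj, ⟨i⟩⟩ := hW
    exact (hXs j hj.le 1 le_rfl hn).of_iso_right hC i.symm

end Vale.Agent.Results.P261.FiniteTypeCountability
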