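import Vale.Agent.P261.H260.Main

/-!
# P261, Q1 at height two, all primes
-/

open CategoryTheory Limits Pretriangulated MonoidalCategory

universe v u

namespace Vale.Agent.Results.P261.HeightTwo

open Vale.Agent.P261

section

variable {C : Type u} [Category.{v} C] [Preadditive C] [HasZeroObject C] [HasShift C ℤ]
    [∀ n : ℤ, (shiftFunctor C n).Additive] [Pretriangulated C]

lemma thick_of_iso {Q : C → Prop} {A B : C} (h : Thick Q A) (e : B ≅ A) : Thick Q B :=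
  Thick.retract e.hom e.inv e.hom_inv_id h

lemma thick_biprod {Q : C → Prop} {A B : C} (hA : Thick Q A) (hB : Thick Q B) :
    Thick Q (A ⊞ B) :=
  Thick.cone (inv_rot_of_distTriang _ (binaryBiproductTriangle_distinguished A B))
    (Thick.shift (-1) hB) hA

lemma thick_tensor [MonoidalCategory C] [TensorTriangulated C] {Q : C → Prop} {A M : C} {c : ℤ}
    {a : 𝟙_ C ⟶ M} {b : M ⟶ (𝟙_ C)⟦(1 : ℤ)⟧}
    (hM : Triangle.mk (c • 𝟙 (𝟙_ C)) a b ∈ distTriang C) (hA : Thick Q A) :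
    Thick Q (A ⊗ M) :=
  Thick.cone (TensorTriangulated.distinguished A _ hM) (thick_of_iso hA (ρ_ A))
    (thick_of_iso hA (ρ_ A))

end

/-- **Height two, all primes.** -/
theorem result {C : Type u} [Category.{v} C] [Preadditive C] [HasZeroObject C] [HasShift C ℤ]
    [∀ n : ℤ, (shiftFunctor C n).Additive] [Pretriangulated C] [MonoidalCategory C]
    [TensorTriangulated C] [HasCoproductsOfShape ℕ C]
    [∀ X : C, PreservesColimitsOfShape (Discrete ℕ) (tensorLeft X)]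
    (p : ℕ) [Fact p.Prime]
    -- Morava K-theories; the smash product theorem; existence of localizations
    (K : ℕ → C) (hKK : ∀ i j, i ≠ j → IsZero (K i ⊗ K j)) (hKp : (p : ℤ) • 𝟙 (K 2) = 0)
    (hsmash : ∀ {A B : C} (f : A ⟶ B), IsBousfieldLocalization (upTo K 1) f →
      ∀ W : C, IsBousfieldLocalization (upTo K 1) (W ◁ f))
    (hex : ∀ W : C, ∃ (L : C) (f : W ⟶ L), IsBousfieldLocalization (upTo K 1) f)
    -- the `p`-complete sphere `S` and its localizations `X j = L_j S`, `Z = L_{K(2)} S`,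
    -- `Y = L_1 L_{K(2)} S`
    (S : C) (X : ℕ → C) (l : ∀ j, S ⟶ X j) (hl : ∀ j, IsBousfieldLocalization (upTo K j) (l j))
    (Z : C) (z : S ⟶ Z) (hz : IsBousfieldLocalization (fun _ : Unit => K 2) z)
    (Y : C) (y : Z ⟶ Y) (hy : IsBousfieldLocalization (upTo K 1) y)
    -- the Moore spectrum `M = V(0)`, an Adams self map `w` of degree `d` and its cofibre `N`
    (M N : C) (a : 𝟙_ C ⟶ M) (b : M ⟶ (𝟙_ C)⟦(1 : ℤ)⟧)
    (hM : Triangle.mk ((p : ℤ) • 𝟙 (𝟙_ C)) a b ∈ distTriang C)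
    (d : ℤ) (w : M⟦d⟧ ⟶ M) (g : M ⟶ N) (e : N ⟶ (M⟦d⟧)⟦(1 : ℤ)⟧)
    (hN : Triangle.mk w g e ∈ distTriang C) (hw : K 2 ◁ w = 0)
    -- the homotopy of `L_{K(2)} N` is finite, the mod `p` homotopy of `L_j S` is countable
    (hfin : ∀ t : ℤ, Finite (N⟦t⟧ ⟶ Z))
    (hX : ∀ (j : ℕ) (t : ℤ), j ≤ 2 → Countable (M⟦t⟧ ⟶ X j))
    -- the published chromatic splittings: `p > 2` and `p = 2`
    (hodd : p ≠ 2 → Nonempty (Y ≅
      (X 1 ⊞ (X 1)⟦(-1 : ℤ)⟧) ⊞ ((X 0)⟦(-3 : ℤ)⟧ ⊞ (X 0)⟦(-4 : ℤ)⟧)))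
    (htwo : p = 2 → Nonempty (Y ≅
      ((X 1 ⊞ (X 1)⟦(-1 : ℤ)⟧) ⊞ ((X 1 ⊗ M)⟦(-2 : ℤ)⟧ ⊞ (X 1 ⊗ M)⟦(-3 : ℤ)⟧)) ⊞
        ((X 0)⟦(-3 : ℤ)⟧ ⊞ (X 0)⟦(-4 : ℤ)⟧))) :
    FiniteType p Z ∧
      ∀ F : C, Thick (fun W => W = M) F → ∀ t : ℤ, Finite (F⟦t⟧ ⟶ Z) := by
  have hF : IsSmallness (fun A : Type v => Finite A) := isSmallness_finite
  have hC : IsSmallness (fun A : Type v => Countable A) := isSmallness_countable
  have hthick : Thick (fun W => W = X 0 ∨ W = X 1) Y := by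
    have h0 : Thick (fun W => W = X 0 ∨ W = X 1) (X 0) := Thick.of (Or.inl rfl)
    have h1 : Thick (fun W => W = X 0 ∨ W = X 1) (X 1) := Thick.of (Or.inr rfl)
    have h00 := thick_biprod (Thick.shift (-3) h0) (Thick.shift (-4) h0)
    have h11 := thick_biprod h1 (Thick.shift (-1) h1)
    by_cases hp : p = 2
    · obtain ⟨i⟩ := htwo hp
      have hM' := thick_tensor hM h1
      exact thick_of_iso (thick_biprod (thick_biprod h11 (thick_biprod (Thick.shift (-2) hM')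
        (Thick.shift (-3) hM'))) h00) i
    · obtain ⟨i⟩ := hodd hp
      exact thick_of_iso (thick_biprod h11 h00) i
  have hY : SmallHom (fun A => Countable A) M Y := Thick.smallHom hC (fun W hW => by
    rcases hW with rfl | rfl
    · exact fun t => hX 0 t (by norm_num)
    · exact fun t => hX 1 t (by norm_num)) hthick
  have hZc : SmallHom (fun A => Countable A) M Z :=
    (compare (n := 2) (by norm_num) hKK hsmash hex (hl 2) (hl 1) hz hy hC
      (fun t => hX 2 t le_rfl) (fun t => hX 1 t (by norm_num))).mpr hY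
  have hZf : SmallHom (fun A => Finite A) M Z := finite_step hz.2 hN hw hfin hZc
  exact ⟨finiteType_of_smallHom p hM hKp hz.2 hZf, fun F hF' t =>
    (Thick.smallHom_left hF (fun W hW => by rw [hW]; exact hZf) hF') t⟩

end Vale.Agent.Results.P261.HeightTwo
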